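import Claimed.Agent.R135.Defs

set_option autoImplicit false

namespace Claimed.Agent.R135

theorem pmf_summable_toReal {α : Type} (p : PMF α) : Summable fun y => (p y).toReal :=
  ENNReal.summable_toReal p.tsum_coe_ne_top

theorem pmf_tsum_toReal {α : Type} (p : PMF α) : ∑' y, (p y).toReal = 1 := by
  rw [← ENNReal.tsum_toReal_eq (fun a => p.apply_ne_top a), p.tsum_coe]; simp

theorem pmf_toReal_le_one {α : Type} (p : PMF α) (y : α) : (p y).toReal ≤ 1 := by
  have := p.coe_le_one y
  exact ENNReal.toReal_le_of_le_ofReal zero_le_one (by simpa using this)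

/-- the deviation of spin `i` from the marginal -/
noncomputable def dev {α : Type} (law : Fin 3 → PMF α) (i : Fin 3) (y : α) : ℝ :=
  (law i y).toReal - (∑ j, (law j y).toReal) / 3

theorem dev_summable {α : Type} (law : Fin 3 → PMF α) (i : Fin 3) : Summable (dev law i) := by
  unfold dev
  refine (pmf_summable_toReal (law i)).sub ?_
  exact (summable_sum fun j _ => pmf_summable_toReal (law j)).div_const 3

theorem adv_term_summable {α : Type} (law : Fin 3 → PMF α) :
    Summable fun y => (∑ i, |dev law i y|) / 6 :=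
  (summable_sum fun i _ => (dev_summable law i).abs).div_const 6

theorem adv_eq {α : Type} (law : Fin 3 → PMF α) : adv law = ∑' y, (∑ i, |dev law i y|) / 6 := rfl

theorem adv_nonneg {α : Type} (law : Fin 3 → PMF α) : 0 ≤ adv law :=
  tsum_nonneg fun y => by positivity

/-- pushing a nonnegative summable weight through a kernel preserves the total mass -/
theorem kernel_mass {α β : Type} (K : α → PMF β) (w : α → ℝ) (hw : ∀ y, 0 ≤ w y) (hs : Summable w) :
    Summable (fun z => ∑' y, w y * (K y z).toReal) ∧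
      ∑' z, ∑' y, w y * (K y z).toReal = ∑' y, w y := by
  have h0 : (0 : α × β → ℝ) ≤ fun x => w x.1 * (K x.1 x.2).toReal := by
    intro x
    simp only [Pi.zero_apply]
    exact mul_nonneg (hw x.1) ENNReal.toReal_nonneg
  have hF : Summable (fun x : α × β => w x.1 * (K x.1 x.2).toReal) := by
    refine (summable_prod_of_nonneg h0).2 ⟨fun y => ?_, ?_⟩
    · exact (pmf_summable_toReal (K y)).mul_left (w y)
    · simpa [tsum_mul_left, pmf_tsum_toReal] using hs
  refine ⟨hF.prod_symm.prod, ?_⟩
  rw [Summable.tsum_comm (f := fun y z => w y * (K y z).toReal) hF]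
  simp [tsum_mul_left, pmf_tsum_toReal]

theorem bind_toReal {α β : Type} (p : PMF α) (K : α → PMF β) (z : β) :
    ((p.bind K) z).toReal = ∑' y, (p y).toReal * (K y z).toReal := by
  rw [PMF.bind_apply, ENNReal.tsum_toReal_eq]
  · simp [ENNReal.toReal_mul]
  · intro a
    exact ENNReal.mul_ne_top (p.apply_ne_top a) ((K a).apply_ne_top z)

theorem summable_mul_kernel {α β : Type} (K : α → PMF β) (w : α → ℝ) (hs : Summable w) (z : β) :
    Summable fun y => w y * (K y z).toReal := by
  refine Summable.of_norm_bounded (g := fun y => |w y|) hs.abs fun y => ?_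
  rw [Real.norm_eq_abs, abs_mul, abs_of_nonneg (ENNReal.toReal_nonneg (a := K y z))]
  exact mul_le_of_le_one_right (abs_nonneg _) (pmf_toReal_le_one _ _)

theorem dev_bind {α β : Type} (law : Fin 3 → PMF α) (K : α → PMF β) (i : Fin 3) (z : β) :
    dev (fun i => (law i).bind K) i z = ∑' y, dev law i y * (K y z).toReal := by
  have h : ∀ j, Summable fun y => (law j y).toReal * (K y z).toReal := fun j =>
    summable_mul_kernel K _ (pmf_summable_toReal (law j)) z
  unfold dev
  simp only [bind_toReal, sub_mul, div_mul_eq_mul_div, Finset.sum_mul]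
  rw [Summable.tsum_sub (h i) ((summable_sum fun j _ => h j).div_const 3), tsum_div_const,
    Summable.tsum_finsetSum fun j _ => h j]

theorem adv_bind_le {α β : Type} (law : Fin 3 → PMF α) (K : α → PMF β) :
    adv (fun i => (law i).bind K) ≤ adv law := by
  rw [adv_eq, adv_eq]
  obtain ⟨h1, h2⟩ := kernel_mass K (fun y => (∑ i, |dev law i y|) / 6)
    (fun y => by positivity) (adv_term_summable law)
  rw [← h2]
  refine Summable.tsum_le_tsum (fun z => ?_) (adv_term_summable _) h1
  have hs : ∀ i, Summable fun y => |dev law i y| * (K y z).toReal := fun i =>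
    summable_mul_kernel K _ (dev_summable law i).abs z
  have : ∀ i, |dev (fun i => (law i).bind K) i z| ≤ ∑' y, |dev law i y| * (K y z).toReal := by
    intro i
    rw [dev_bind]
    have := norm_tsum_le_tsum_norm (f := fun y => dev law i y * (K y z).toReal)
      (by simpa [abs_mul] using hs i)
    simpa [abs_mul] using this
  calc (∑ i, |dev (fun i => (law i).bind K) i z|) / 6
      ≤ (∑ i, ∑' y, |dev law i y| * (K y z).toReal) / 6 := by
        gcongr with i _
        exact this i
    _ = ∑' y, (∑ i, |dev law i y|) / 6 * (K y z).toReal := by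
        rw [← Summable.tsum_finsetSum fun i _ => hs i, ← tsum_div_const]
        simp only [div_mul_eq_mul_div, Finset.sum_mul]

theorem adv_le_of_degraded {α β : Type} {p : Fin 3 → PMF α} {p' : Fin 3 → PMF β}
    (h : Degraded p p') : adv p' ≤ adv p := by
  obtain ⟨K, hK⟩ := h
  have : p' = fun i => (p i).bind K := funext hK
  rw [this]
  exact adv_bind_le p K

theorem abs_sub_le_adv_term {α : Type} (law : Fin 3 → PMF α) (y : α) :
    |(law 0 y).toReal - (law 1 y).toReal| ≤ ∑ i, |dev law i y| := by
  rw [Fin.sum_univ_three]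
  have h : (law 0 y).toReal - (law 1 y).toReal = dev law 0 y - dev law 1 y := by
    unfold dev; ring
  rw [h]
  have := abs_sub (dev law 0 y) (dev law 1 y)
  have h2 := abs_nonneg (dev law 2 y)
  linarith

theorem tsum_abs_sub_le_adv {α : Type} (law : Fin 3 → PMF α) :
    (∑' y, |(law 0 y).toReal - (law 1 y).toReal|) / 6 ≤ adv law := by
  rw [adv_eq, ← tsum_div_const]
  refine Summable.tsum_le_tsum (fun y => ?_) ?_ (adv_term_summable law)
  · have := abs_sub_le_adv_term law y
    gcongr
  · exact (((pmf_summable_toReal (law 0)).sub (pmf_summable_toReal (law 1))).abs).div_const 6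

theorem key_pointwise (c V r0 r1 s : ℝ) (hV : 0 < V) (h0 : 0 ≤ r0) (h1 : 0 ≤ r1) :
    c * (r0 * s - r1 * s) ≤ c ^ 2 / (4 * V) * (r0 * s ^ 2 + r1 * s ^ 2) + V * |r0 - r1| := by
  have hD : |r0 - r1| ≤ r0 + r1 := by
    rw [abs_le]; constructor <;> linarith
  have hD0 := abs_nonneg (r0 - r1)
  set x := |c * s| with hx
  have hx0 : 0 ≤ x := abs_nonneg _
  have hx2 : x ^ 2 = c ^ 2 * s ^ 2 := by rw [hx, sq_abs]; ring
  have h3 : x ≤ x ^ 2 / (4 * V) + V := by
    rw [← sub_nonneg]
    have : x ^ 2 / (4 * V) + V - x = (x - 2 * V) ^ 2 / (4 * V) := by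
      field_simp; ring
    rw [this]; positivity
  have h4 : c * (r0 * s - r1 * s) ≤ |r0 - r1| * x := by
    have : c * (r0 * s - r1 * s) = (r0 - r1) * (c * s) := by ring
    rw [this, hx, ← abs_mul]
    exact le_abs_self _
  have h5 : |r0 - r1| * x ≤ |r0 - r1| * (x ^ 2 / (4 * V)) + V * |r0 - r1| := by
    nlinarith
  have h6 : |r0 - r1| * (x ^ 2 / (4 * V)) ≤ (r0 + r1) * (x ^ 2 / (4 * V)) := by
    gcongr
  have h7 : (r0 + r1) * (x ^ 2 / (4 * V)) = c ^ 2 / (4 * V) * (r0 * s ^ 2 + r1 * s ^ 2) := by
    rw [hx2]; ring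
  linarith

/-- second moment lower bound (`c` may be negative) -/
theorem adv_ge_of_good {α : Type} {c V : ℝ} (hV : 0 < V) {law : Fin 3 → PMF α}
    (h : Good c V law) : c ^ 2 / (27 * V) ≤ adv law := by
  obtain ⟨S, hS⟩ := h
  obtain ⟨hm0, v0, hv0, hs0⟩ := hS 0
  obtain ⟨hm1, v1, hv1, hs1⟩ := hS 1
  unfold HasEx at hm0 hm1 hs0 hs1
  have hDs : Summable fun y => |(law 0 y).toReal - (law 1 y).toReal| :=
    ((pmf_summable_toReal (law 0)).sub (pmf_summable_toReal (law 1))).abs
  have hL := (hm0.sub hm1).mul_left c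
  have hR := ((hs0.add hs1).mul_left (c ^ 2 / (4 * V))).add (hDs.hasSum.mul_left V)
  have hle := hasSum_le (fun y => key_pointwise c V (law 0 y).toReal (law 1 y).toReal (S y) hV
    ENNReal.toReal_nonneg ENNReal.toReal_nonneg) hL hR
  set D := ∑' y, |(law 0 y).toReal - (law 1 y).toReal| with hD
  have hadv : D / 6 ≤ adv law := tsum_abs_sub_le_adv law
  have he : c * (c * eig 0 - c * eig 1) = c ^ 2 := by
    simp [eig]; ring
  rw [he] at hle
  have h1 : c ^ 2 / (4 * V) * (v0 + v1) ≤ c ^ 2 / (4 * V) * (V + V) := by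
    gcongr
  have h2 : c ^ 2 / (4 * V) * (V + V) = c ^ 2 / 2 := by
    field_simp; ring
  have h3 : c ^ 2 / 2 ≤ V * D := by linarith
  have h4 : c ^ 2 / (27 * V) ≤ D / 6 := by
    rw [div_le_div_iff₀ (by positivity) (by norm_num)]
    nlinarith [sq_nonneg c]
  linarith

end Claimed.Agent.R135
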