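import Claimed.Agent.R135.Defs

set_option autoImplicit false

namespace Claimed.Agent.R135

theorem adv_term_alg (r : Fin 3 → ℝ) (hr : ∀ i, 0 ≤ r i) (m : ℝ) (hm : m = (∑ j, r j) / 3)
    (post : Fin 3 → ℝ) (hpost : m ≠ 0 → ∀ i, post i = r i / (3 * m)) :
    m * ((∑ i, |post i - 1 / 3|) / 2) = (∑ i, |r i - (∑ j, r j) / 3|) / 6 := by
  rw [← hm]
  by_cases h0 : m = 0
  · have hsum : ∑ j, r j = 0 := by
      rw [h0] at hm; linarith
    have hz : ∀ i, r i = 0 := fun i =>
      (Finset.sum_eq_zero_iff_of_nonneg fun j _ => hr j).1 hsum i (Finset.mem_univ i)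
    simp [h0, hz]
  · have hmpos : 0 < m := by
      have : 0 ≤ m := by
        rw [hm]; exact div_nonneg (Finset.sum_nonneg fun j _ => hr j) (by norm_num)
      exact lt_of_le_of_ne this (Ne.symm h0)
    have h1 : ∀ i, |post i - 1 / 3| = |r i - m| / (3 * m) := by
      intro i
      rw [hpost h0 i]
      have : r i / (3 * m) - 1 / 3 = (r i - m) / (3 * m) := by
        field_simp
      rw [this, abs_div, abs_of_pos (by positivity : (0:ℝ) < 3 * m)]
    simp only [h1]
    rw [← Finset.sum_div]
    field_simp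
    ring

end Claimed.Agent.R135
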