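import Mathlib

set_option autoImplicit false

namespace Claimed.Agent.R135

/-- iid list of length `n` (generic copy of the prelude's `iidList`). -/
noncomputable def iidL {α : Type} (p : PMF α) : ℕ → PMF (List α)
  | 0 => PMF.pure []
  | n + 1 => p.bind fun a => (iidL p n).map (List.cons a)

/-- one Galton-Watson generation: `off`-many iid samples of `p`, as a multiset. -/
noncomputable def step {α : Type} (off : PMF ℕ) (p : PMF α) : PMF (Multiset α) :=
  off.bind fun k => (iidL p k).map (fun xs : List α => (xs : Multiset α))

/-- generic advantage. -/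
noncomputable def adv {α : Type} (law : Fin 3 → PMF α) : ℝ :=
  ∑' y, (∑ i, |(law i y).toReal - (∑ j, (law j y).toReal) / 3|) / 6

/-- `(α, law)` is the level-`n` observation law of the broadcast process. -/
inductive IsLevel (off : PMF ℕ) (M : Fin 3 → PMF (Fin 3)) :
    ℕ → (α : Type) → (Fin 3 → PMF α) → Prop
  | zero : IsLevel off M 0 (Fin 3) (fun i => PMF.pure i)
  | succ {n : ℕ} {α : Type} {law : Fin 3 → PMF α} (h : IsLevel off M n α law) :
      IsLevel off M (n + 1) (Multiset α) (fun i => step off ((M i).bind law))

/-- `p'` is obtained from `p` by a Markov kernel not depending on the spin. -/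
def Degraded {α β : Type} (p : Fin 3 → PMF α) (p' : Fin 3 → PMF β) : Prop :=
  ∃ K : α → PMF β, ∀ i, p' i = (p i).bind K

/-- `g` has expectation `m` under `p` (absolutely convergent sum). -/
def HasEx {α : Type} (p : PMF α) (g : α → ℝ) (m : ℝ) : Prop :=
  HasSum (fun a => (p a).toReal * g a) m

/-- eigenvector of the Potts channel. -/
noncomputable def eig (i : Fin 3) : ℝ := if i = 0 then 2 / 3 else -(1 / 3)

/-- there is a statistic with mean `c * eig i` and second moment at most `V`. -/
def Good {α : Type} (c V : ℝ) (law : Fin 3 → PMF α) : Prop :=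
  ∃ S : α → ℝ, ∀ i, HasEx (law i) S (c * eig i) ∧ ∃ v, v ≤ V ∧ HasEx (law i) (fun a => S a ^ 2) v

/-- `M` is the Potts channel with parameter `lam`. -/
def IsPotts (lam : ℝ) (M : Fin 3 → PMF (Fin 3)) : Prop :=
  ∀ i j, (M i j).toReal = if i = j then (1 + 2 * lam) / 3 else (1 - lam) / 3

/-! Cite the on-demand equation lemmas once, here, so that no two later files hold a copy. -/
theorem cite_auto : True := by
  have := @iidL.eq_def
  have := @iidL.eq_1
  have := @iidL.eq_2
  have := @step.eq_1
  have := @adv.eq_1
  have := @Degraded.eq_1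
  have := @HasEx.eq_1
  have := @eig.eq_1
  have := @Good.eq_1
  have := @IsPotts.eq_1
  trivial

end Claimed.Agent.R135
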