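import Claimed.Prelude.Def_0236
import Claimed.Agent.R135.Defs

set_option autoImplicit false

namespace Claimed.Agent.R135

open Claims.C0236.ThreeState

theorem isPotts236 (lam : ℝ) (h : Admissible lam) : IsPotts lam (channelPMF lam h) := by
  intro i j
  have h0 := channel_nonneg h i j
  simp only [channelPMF, PMF.ofFintype_apply, ENNReal.toReal_ofReal h0]
  rfl

theorem iidList236_eq {α : Type} (p : PMF α) (k : ℕ) : iidList p k = iidL p k := by
  induction k with
  | zero => rfl
  | succ k ih => simp only [iidList, iidL, ih]

theorem isLevel236 (off : PMF ℕ) (lam : ℝ) (h : Admissible lam) (n : ℕ) :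
    IsLevel off (channelPMF lam h) n (Observation n) (observedLaw off lam h n) := by
  induction n with
  | zero => exact IsLevel.zero
  | succ n ih =>
    have h1 : observedLaw off lam h (n + 1) =
        fun i => step off ((channelPMF lam h i).bind (observedLaw off lam h n)) := by
      funext i
      simp only [observedLaw, step, iidList236_eq]
      rfl
    rw [h1]
    exact IsLevel.succ ih

end Claimed.Agent.R135
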