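import Claimed.Prelude.Def_0236
import Claimed.Agent.R135.AdvAlg
import Claimed.Agent.R135.Glue236

set_option autoImplicit false

namespace Claimed.Agent.R135

open Claims.C0236.ThreeState

theorem marginal236_toReal {α : Type} (law : Fin 3 → PMF α) (y : α) :
    (marginal law y).toReal = (∑ j, (law j y).toReal) / 3 := by
  unfold marginal uniformSpin
  rw [PMF.bind_apply, tsum_fintype]
  simp only [PMF.ofFintype_apply]
  rw [ENNReal.toReal_sum (fun j _ => ENNReal.mul_ne_top (by simp) ((law j).apply_ne_top y))]
  simp only [ENNReal.toReal_mul, Finset.sum_div]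
  refine Finset.sum_congr rfl fun j _ => ?_
  simp
  ring

theorem advantage236_eq_adv {α : Type} (law : Fin 3 → PMF α) : advantage law = adv law := by
  unfold advantage adv
  refine tsum_congr fun y => ?_
  refine adv_term_alg (fun i => (law i y).toReal) (fun i => ENNReal.toReal_nonneg) _
    (marginal236_toReal law y) _ ?_
  intro hm i
  unfold posterior
  rw [if_neg]
  intro h
  exact hm (by rw [h]; simp)

end Claimed.Agent.R135
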