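import Claimed.Prelude.Def_0237
import Claimed.Agent.R135.AdvAlg
import Claimed.Agent.R135.Glue237

set_option autoImplicit false

namespace Claimed.Agent.R135

open Claims.C0237.ThreeState.TreeClauses

theorem joint237_toReal (lam : ℝ) (hlam : Admissible lam) (off : PMF ℕ) (n : ℕ)
    (i : Fin 3) (o : Observation n) :
    (jointWeight lam hlam off n i o).toReal = (observationLaw lam hlam off n i o).toReal / 3 := by
  unfold jointWeight
  rw [ENNReal.toReal_mul]
  simp
  ring

theorem joint237_ne_top (lam : ℝ) (hlam : Admissible lam) (off : PMF ℕ) (n : ℕ)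
    (i : Fin 3) (o : Observation n) : jointWeight lam hlam off n i o ≠ ⊤ := by
  unfold jointWeight
  exact ENNReal.mul_ne_top (by simp) (PMF.apply_ne_top _ _)

theorem marginal237_toReal (lam : ℝ) (hlam : Admissible lam) (off : PMF ℕ) (n : ℕ)
    (o : Observation n) :
    (marginalWeight lam hlam off n o).toReal
      = (∑ j, (observationLaw lam hlam off n j o).toReal) / 3 := by
  unfold marginalWeight
  rw [ENNReal.toReal_sum (fun j _ => joint237_ne_top lam hlam off n j o), Finset.sum_div]
  exact Finset.sum_congr rfl fun j _ => joint237_toReal lam hlam off n j o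

theorem advantage237_eq_adv (lam : ℝ) (hlam : Admissible lam) (off : PMF ℕ) (n : ℕ) :
    advantage lam hlam off n = adv (observationLaw lam hlam off n) := by
  unfold advantage adv
  refine tsum_congr fun y => ?_
  refine adv_term_alg (fun i => (observationLaw lam hlam off n i y).toReal)
    (fun i => ENNReal.toReal_nonneg) _ (marginal237_toReal lam hlam off n y) _ ?_
  intro hm i
  unfold posterior
  rw [ENNReal.toReal_div, joint237_toReal]
  field_simp

end Claimed.Agent.R135
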