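import Claimed.Agent.R135.Defs

set_option autoImplicit false

namespace Claimed.Agent.R135

variable {α β : Type}

theorem HasEx.add {p : PMF α} {g h : α → ℝ} {m n : ℝ} (hg : HasEx p g m) (hh : HasEx p h n) :
    HasEx p (fun a => g a + h a) (m + n) := by
  unfold HasEx at *
  simpa [mul_add] using HasSum.add hg hh

theorem HasEx.const_mul {p : PMF α} {g : α → ℝ} {m : ℝ} (c : ℝ) (hg : HasEx p g m) :
    HasEx p (fun a => c * g a) (c * m) := by
  unfold HasEx at *
  have := HasSum.mul_left c hg
  simpa [mul_left_comm] using this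

theorem HasEx.congr {p : PMF α} {g h : α → ℝ} {m n : ℝ} (hg : HasEx p g m)
    (hgh : ∀ a, g a = h a) (hmn : m = n) : HasEx p h n := by
  have : g = h := funext hgh
  rw [← this, ← hmn]; exact hg

theorem hasSum_toReal_pmf (p : PMF α) : HasSum (fun a => (p a).toReal) 1 := by
  have h1 : ∑' a, p a ≠ ⊤ := by rw [p.tsum_coe]; exact ENNReal.one_ne_top
  have h2 := ENNReal.hasSum_toReal h1
  rwa [← ENNReal.tsum_toReal_eq (fun a => p.apply_ne_top a), p.tsum_coe, ENNReal.toReal_one] at h2

theorem hasEx_const (p : PMF α) (c : ℝ) : HasEx p (fun _ => c) c := by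
  unfold HasEx
  simpa using (hasSum_toReal_pmf p).mul_right c

theorem hasEx_pure (a : α) (g : α → ℝ) : HasEx (PMF.pure a) g (g a) := by
  unfold HasEx
  have := hasSum_single (f := fun x => ((PMF.pure a : PMF α) x).toReal * g x) a (by
    intro b hb
    simp [PMF.pure_apply, hb])
  simpa using this

theorem hasSum_bind_apply (p : PMF α) (q : α → PMF β) (b : β) :
    HasSum (fun a => (p a).toReal * (q a b).toReal) ((p.bind q b).toReal) := by
  have h1 : ∑' a, p a * q a b ≠ ⊤ := by
    rw [← PMF.bind_apply]; exact PMF.apply_ne_top _ _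
  have h2 := ENNReal.hasSum_toReal h1
  rw [← ENNReal.tsum_toReal_eq
    (fun a => ENNReal.mul_ne_top (p.apply_ne_top a) ((q a).apply_ne_top b)),
    ← PMF.bind_apply] at h2
  simpa [ENNReal.toReal_mul] using h2

/-- Fubini for `bind`, with a dominating function. -/
theorem hasEx_bind {p : PMF α} {q : α → PMF β} {g G : β → ℝ} {m m' : α → ℝ}
    (hG : ∀ b, |g b| ≤ G b) (hq : ∀ a, HasEx (q a) g (m a)) (hq' : ∀ a, HasEx (q a) G (m' a))
    (hs : Summable (fun a => (p a).toReal * m' a)) {m₀ : ℝ} (hm : HasEx p m m₀) :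
    HasEx (p.bind q) g m₀ := by
  unfold HasEx at *
  have hG0 : ∀ b, 0 ≤ G b := fun b => (abs_nonneg _).trans (hG b)
  have hF's : Summable (fun ab : α × β => (p ab.1).toReal * ((q ab.1 ab.2).toReal * G ab.2)) := by
    rw [summable_prod_of_nonneg (fun ab =>
      mul_nonneg ENNReal.toReal_nonneg (mul_nonneg ENNReal.toReal_nonneg (hG0 _)))]
    constructor
    · intro a
      show Summable (fun b => (p a).toReal * ((q a b).toReal * G b))
      exact Summable.mul_left _ (hq' a).summable
    · have : (fun a => ∑' b, (p a).toReal * ((q a b).toReal * G b))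
          = fun a => (p a).toReal * m' a := by
        funext a
        rw [tsum_mul_left, (hq' a).tsum_eq]
      show Summable (fun a => ∑' b, (p a).toReal * ((q a b).toReal * G b))
      rw [this]; exact hs
  have hFs : Summable (fun ab : α × β => (p ab.1).toReal * ((q ab.1 ab.2).toReal * g ab.2)) := by
    refine Summable.of_norm_bounded hF's (fun ab => ?_)
    simp only [Real.norm_eq_abs, abs_mul, ENNReal.abs_toReal]
    gcongr
    exact hG _
  have h1 : HasSum (fun a => (p a).toReal * m a)
      (∑' ab : α × β, (p ab.1).toReal * ((q ab.1 ab.2).toReal * g ab.2)) :=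
    hFs.hasSum.prod_fiberwise (fun a => (hq a).mul_left _)
  have hm₀ := h1.unique hm
  have hFs' : HasSum (fun ba : β × α => (p ba.2).toReal * ((q ba.2 ba.1).toReal * g ba.1)) m₀ := by
    rw [← hm₀]
    exact (Equiv.prodComm β α).hasSum_iff.2 hFs.hasSum
  refine hFs'.prod_fiberwise (fun b => ?_)
  have := (hasSum_bind_apply p q b).mul_right (g b)
  simpa [mul_assoc] using this

end Claimed.Agent.R135
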