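import Claimed.Agent.R135.Defs

set_option autoImplicit false

namespace Claimed.Agent.R135

noncomputable def seqL {α β : Type} (K : α → PMF β) : List α → PMF (List β)
  | [] => PMF.pure []
  | a :: l => (K a).bind fun b => (seqL K l).map (List.cons b)

noncomputable def seqM {α β : Type} (K : α → PMF β) (l : List α) : PMF (Multiset β) :=
  (seqL K l).map (fun xs : List β => (xs : Multiset β))

theorem seqM_cons {α β : Type} (K : α → PMF β) (a : α) (l : List α) :
    seqM K (a :: l) = (K a).bind fun b => (seqM K l).map (fun s => b ::ₘ s) := by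
  simp only [seqM, seqL, PMF.map_bind, PMF.map_comp]
  rfl

theorem seqM_perm {α β : Type} (K : α → PMF β) {l₁ l₂ : List α} (h : l₁.Perm l₂) :
    seqM K l₁ = seqM K l₂ := by
  induction h with
  | nil => rfl
  | cons x _ ih => rw [seqM_cons, seqM_cons, ih]
  | swap x y l =>
    simp only [seqM_cons, PMF.map_bind, PMF.map_comp]
    rw [PMF.bind_comm]
    congr 1
    funext a
    congr 1
    funext b
    congr 1
    funext s
    simp [Multiset.cons_swap]
  | trans _ _ ih₁ ih₂ => exact ih₁.trans ih₂

noncomputable def liftM {α β : Type} (K : α → PMF β) (s : Multiset α) : PMF (Multiset β) :=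
  seqM K s.toList

theorem liftM_coe {α β : Type} (K : α → PMF β) (l : List α) :
    liftM K (l : Multiset α) = seqM K l := by
  apply seqM_perm
  rw [← Multiset.coe_eq_coe, Multiset.coe_toList]

theorem iidL_bind_seqL {α β : Type} (p : PMF α) (K : α → PMF β) (k : ℕ) :
    (iidL p k).bind (seqL K) = iidL (p.bind K) k := by
  induction k with
  | zero => simp [iidL, seqL]
  | succ k ih =>
    simp only [iidL, PMF.bind_bind, PMF.bind_map, ← ih, PMF.map_bind]
    congr 1
    funext a
    simp only [Function.comp_def, seqL]
    rw [PMF.bind_comm]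

theorem iidL_map_bind_liftM {α β : Type} (p : PMF α) (K : α → PMF β) (k : ℕ) :
    ((iidL p k).map (fun xs : List α => (xs : Multiset α))).bind (liftM K) =
      (iidL (p.bind K) k).map (fun xs : List β => (xs : Multiset β)) := by
  rw [PMF.bind_map, ← iidL_bind_seqL, PMF.map_bind]
  congr 1
  funext l
  simp [liftM_coe, seqM]

theorem step_bind_liftM {α β : Type} (off : PMF ℕ) (p : PMF α) (K : α → PMF β) :
    (step off p).bind (liftM K) = step off (p.bind K) := by
  simp only [step, PMF.bind_bind, iidL_map_bind_liftM]

theorem degraded_step {α β : Type} (off : PMF ℕ) (M : Fin 3 → PMF (Fin 3))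
    {p : Fin 3 → PMF α} {p' : Fin 3 → PMF β} (h : Degraded p p') :
    Degraded (fun i => step off ((M i).bind p)) (fun i => step off ((M i).bind p')) := by
  obtain ⟨K, hK⟩ := h
  refine ⟨liftM K, fun i => ?_⟩
  have hp' : p' = fun j => (p j).bind K := funext hK
  simp only [step_bind_liftM, PMF.bind_bind, hp']

theorem degraded_of_isLevel {off : PMF ℕ} {M : Fin 3 → PMF (Fin 3)} {n : ℕ} {α : Type}
    {law : Fin 3 → PMF α} (h : IsLevel off M n α law) :
    ∀ {β : Type} {law' : Fin 3 → PMF β}, IsLevel off M (n + 1) β law' → Degraded law law' := by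
  induction h with
  | zero =>
    intro β law' h'
    exact ⟨law', fun i => (PMF.pure_bind i law').symm⟩
  | succ _ ih =>
    intro β law' h'
    cases h' with
    | succ h'' => exact degraded_step off M (ih h'')

end Claimed.Agent.R135
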