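import Claimed.Agent.R135.Ex

set_option autoImplicit false

namespace Claimed.Agent.R135

variable {α β : Type}

theorem hasEx_map {p : PMF α} {f : α → β} {g : β → ℝ} {m : ℝ}
    (h : HasEx p (fun a => g (f a)) m) : HasEx (p.map f) g m := by
  have habs : Summable (fun a => (p a).toReal * |g (f a)|) := by
    have := h.summable.abs
    simpa [abs_mul] using this
  exact hasEx_bind (p := p) (q := fun a => PMF.pure (f a)) (g := g) (G := fun b => |g b|)
    (fun b => le_rfl) (fun a => hasEx_pure (f a) g) (fun a => hasEx_pure (f a) _) habs h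

/-- first and second moment -/
def Mom (p : PMF α) (g : α → ℝ) (m s : ℝ) : Prop :=
  HasEx p g m ∧ HasEx p (fun a => g a ^ 2) s

theorem mom_bind {p : PMF α} {q : α → PMF β} {g : β → ℝ} {m s : α → ℝ}
    (hq : ∀ a, Mom (q a) g (m a) (s a)) {m₀ s₀ : ℝ} (hm : HasEx p m m₀) (hs : HasEx p s s₀) :
    Mom (p.bind q) g m₀ s₀ := by
  constructor
  · refine hasEx_bind (G := fun b => 1 + g b ^ 2) (m' := fun a => 1 + s a) (fun b => ?_)
      (fun a => (hq a).1) (fun a => (hasEx_const _ 1).add (hq a).2) ?_ hm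
    · rcases abs_cases (g b) with ⟨h, _⟩ | ⟨h, _⟩ <;> rw [h] <;> nlinarith [sq_nonneg (g b - 1), sq_nonneg (g b + 1)]
    · exact ((hasEx_const p 1).add hs).summable
  · refine hasEx_bind (G := fun b => g b ^ 2) (m' := s) (fun b => ?_)
      (fun a => (hq a).2) (fun a => (hq a).2) hs.summable hs
    rw [abs_of_nonneg (sq_nonneg _)]

theorem mom_map {p : PMF α} {f : α → β} {g : β → ℝ} {m s : ℝ}
    (h : Mom p (fun a => g (f a)) m s) : Mom (p.map f) g m s :=
  ⟨hasEx_map h.1, hasEx_map h.2⟩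

theorem mom_iidL {p : PMF α} {g : α → ℝ} {μ s : ℝ} (h : Mom p g μ s) (k : ℕ) :
    Mom (iidL p k) (fun l => (l.map g).sum) (k * μ) (k * s + k * (k - 1) * μ ^ 2) := by
  induction k with
  | zero =>
    constructor
    · simpa [iidL] using hasEx_pure ([] : List α) (fun l => (l.map g).sum)
    · have := hasEx_pure ([] : List α) (fun l => (l.map g).sum ^ 2)
      simpa [iidL] using this.congr (fun _ => rfl) (by simp)
  | succ k ih =>
    have key : ∀ a, Mom ((iidL p k).map (List.cons a)) (fun l => (l.map g).sum)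
        (g a + k * μ) (g a ^ 2 + (2 * (k * μ)) * g a + (k * s + k * (k - 1) * μ ^ 2)) := by
      intro a
      apply mom_map
      constructor
      · exact ((hasEx_const _ (g a)).add ih.1).congr (fun l => by simp) rfl
      · exact (((hasEx_const _ (g a ^ 2)).add (ih.1.const_mul (2 * g a))).add ih.2).congr
          (fun l => by simp; ring) (by ring)
    have := mom_bind (p := p) key (m₀ := μ + k * μ)
      (s₀ := s + (2 * (k * μ)) * μ + (k * s + k * (k - 1) * μ ^ 2))
      (h.1.add (hasEx_const _ _))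
      ((h.2.add (h.1.const_mul _)).add (hasEx_const _ _))
    have e1 : ((k + 1 : ℕ) : ℝ) * μ = μ + k * μ := by push_cast; ring
    have e2 : ((k + 1 : ℕ) : ℝ) * s + ((k + 1 : ℕ) : ℝ) * (((k + 1 : ℕ) : ℝ) - 1) * μ ^ 2
        = s + (2 * (k * μ)) * μ + (k * s + k * (k - 1) * μ ^ 2) := by push_cast; ring
    rw [e1, e2]
    exact this

theorem mom_step {off : PMF ℕ} {d D₂ : ℝ}
    (hd : HasSum (fun k : ℕ => (off k).toReal * (k : ℝ)) d)
    (hD : HasSum (fun k : ℕ => (off k).toReal * ((k : ℝ) * ((k : ℝ) - 1))) D₂)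
    {p : PMF α} {g : α → ℝ} {μ s : ℝ} (h : Mom p g μ s) :
    Mom (step off p) (fun ms => (ms.map g).sum) (d * μ) (d * s + D₂ * μ ^ 2) := by
  have key : ∀ k : ℕ, Mom ((iidL p k).map (fun xs : List α => (xs : Multiset α)))
      (fun ms => (ms.map g).sum) (k * μ) (k * s + k * (k - 1) * μ ^ 2) := by
    intro k
    apply mom_map
    simpa using mom_iidL h k
  refine mom_bind (p := off) key ?_ ?_
  · have := hd.mul_right μ
    unfold HasEx
    simpa [mul_assoc] using this
  · have := (hd.mul_right s).add (hD.mul_right (μ ^ 2))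
    have e : (fun k : ℕ => (off k).toReal * ((k : ℝ) * s + (k : ℝ) * ((k : ℝ) - 1) * μ ^ 2))
        = fun b : ℕ => (off b).toReal * (b : ℝ) * s
          + (off b).toReal * ((b : ℝ) * ((b : ℝ) - 1)) * μ ^ 2 := by
      funext k; ring
    show HasSum (fun k : ℕ => (off k).toReal * ((k : ℝ) * s + (k : ℝ) * ((k : ℝ) - 1) * μ ^ 2)) _
    rw [e]; exact this

theorem eig_sq_le_one (i : Fin 3) : eig i ^ 2 ≤ 1 := by
  unfold eig; split_ifs <;> norm_num

theorem good_zero : Good 1 1 (fun i : Fin 3 => PMF.pure i) := by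
  refine ⟨eig, fun i => ⟨by simpa using hasEx_pure i eig, eig i ^ 2, eig_sq_le_one i,
    hasEx_pure i (fun a => eig a ^ 2)⟩⟩

theorem good_step {α : Type} {off : PMF ℕ} {M : Fin 3 → PMF (Fin 3)} {lam d D₂ c V : ℝ}
    (hM : IsPotts lam M)
    (hd : HasSum (fun k : ℕ => (off k).toReal * (k : ℝ)) d)
    (hD : HasSum (fun k : ℕ => (off k).toReal * ((k : ℝ) * ((k : ℝ) - 1))) D₂)
    {law : Fin 3 → PMF α} (h : Good c V law) :
    Good (d * lam * c) (d * V + D₂ * (lam * c) ^ 2) (fun i => step off ((M i).bind law)) := by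
  obtain ⟨S, hS⟩ := h
  choose hm v hv hs using hS
  refine ⟨fun ms => (ms.map S).sum, fun i => ?_⟩
  have hmix : Mom ((M i).bind law) S (∑ j, (M i j).toReal * (c * eig j))
      (∑ j, (M i j).toReal * v j) :=
    mom_bind (fun j => ⟨hm j, hs j⟩) (hasSum_fintype _) (hasSum_fintype _)
  have hst := mom_step hd hD hmix
  have e1 : ∑ j, (M i j).toReal * (c * eig j) = lam * c * eig i := by
    simp only [hM i, Fin.sum_univ_three, eig]
    fin_cases i <;> simp <;> ring
  rw [e1] at hst
  refine ⟨hst.1.congr (fun _ => rfl) (by ring), _, ?_, hst.2⟩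
  have hd0 : 0 ≤ d := hd.nonneg (fun k => by positivity)
  have hD0 : 0 ≤ D₂ := by
    refine hD.nonneg (fun k => ?_)
    rcases Nat.eq_zero_or_pos k with rfl | hk
    · simp
    · have : (1 : ℝ) ≤ k := by exact_mod_cast hk
      have h2 : (0 : ℝ) ≤ (k : ℝ) - 1 := by linarith
      positivity
  have hsum1 : ∑ j, (M i j).toReal = 1 := by
    simp only [hM i, Fin.sum_univ_three]
    fin_cases i <;> simp <;> ring
  have h1 : ∑ j, (M i j).toReal * v j ≤ V := by
    calc ∑ j, (M i j).toReal * v j ≤ ∑ j, (M i j).toReal * V :=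
          Finset.sum_le_sum (fun j _ => mul_le_mul_of_nonneg_left (hv j) ENNReal.toReal_nonneg)
      _ = V := by rw [← Finset.sum_mul, hsum1, one_mul]
  have h2 : (lam * c * eig i) ^ 2 ≤ (lam * c) ^ 2 := by
    rw [mul_pow]
    exact mul_le_of_le_one_right (sq_nonneg _) (eig_sq_le_one i)
  nlinarith [mul_le_mul_of_nonneg_left h1 hd0, mul_le_mul_of_nonneg_left h2 hD0]

end Claimed.Agent.R135
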