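import Claimed.Agent.R135.Adv
import Claimed.Agent.R135.Kernel
import Claimed.Agent.R135.Moments

set_option autoImplicit false

namespace Claimed.Agent.R135

open Filter

theorem Good.mono {α : Type} {c V V' : ℝ} {law : Fin 3 → PMF α} (h : Good c V law)
    (hV : V ≤ V') : Good c V' law := by
  obtain ⟨S, hS⟩ := h
  refine ⟨S, fun i => ⟨(hS i).1, ?_⟩⟩
  obtain ⟨v, hv, hv'⟩ := (hS i).2
  exact ⟨v, hv.trans hV, hv'⟩

theorem good_of_isLevel {off : PMF ℕ} {M : Fin 3 → PMF (Fin 3)} {lam d D₂ C : ℝ}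
    (hM : IsPotts lam M)
    (hd : HasSum (fun k : ℕ => (off k).toReal * (k : ℝ)) d)
    (hD : HasSum (fun k : ℕ => (off k).toReal * ((k : ℝ) * ((k : ℝ) - 1))) D₂)
    (hC1 : 1 ≤ C) (hC : d * C + D₂ * lam ^ 2 ≤ C * (d * lam) ^ 2)
    {n : ℕ} {α : Type} {law : Fin 3 → PMF α} (h : IsLevel off M n α law) :
    Good ((d * lam) ^ n) (C * ((d * lam) ^ n) ^ 2) law := by
  induction h with
  | zero =>
    have := good_zero.mono (V' := C * ((d * lam) ^ 0) ^ 2) (by simpa using hC1)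
    simpa using this
  | @succ n α law h ih =>
    have h1 := good_step hM hd hD ih
    have e : d * lam * (d * lam) ^ n = (d * lam) ^ (n + 1) := by ring
    rw [e] at h1
    refine h1.mono ?_
    have h2 : 0 ≤ ((d * lam) ^ n) ^ 2 := sq_nonneg _
    have h3 := mul_le_mul_of_nonneg_right hC h2
    calc d * (C * ((d * lam) ^ n) ^ 2) + D₂ * (lam * (d * lam) ^ n) ^ 2
        = (d * C + D₂ * lam ^ 2) * ((d * lam) ^ n) ^ 2 := by ring
      _ ≤ C * (d * lam) ^ 2 * ((d * lam) ^ n) ^ 2 := h3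
      _ = C * ((d * lam) ^ (n + 1)) ^ 2 := by ring

theorem main_generic {off : PMF ℕ} {M : Fin 3 → PMF (Fin 3)} {lam d D₂ : ℝ}
    (hM : IsPotts lam M)
    (hd : HasSum (fun k : ℕ => (off k).toReal * (k : ℝ)) d)
    (hD : HasSum (fun k : ℕ => (off k).toReal * ((k : ℝ) * ((k : ℝ) - 1))) D₂)
    (hcrit : 1 < d * lam ^ 2)
    (O : ℕ → Type) (law : ∀ n, Fin 3 → PMF (O n))
    (hL : ∀ n, IsLevel off M n (O n) (law n)) :
    ∃ L : ℝ, 0 < L ∧ Tendsto (fun n => adv (law n)) atTop (nhds L) := by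
  have hd0 : 0 ≤ d := hd.nonneg (fun k => by positivity)
  have hD0 : 0 ≤ D₂ := by
    refine hD.nonneg (fun k => ?_)
    rcases Nat.eq_zero_or_pos k with rfl | hk
    · simp
    · have : (1 : ℝ) ≤ k := by exact_mod_cast hk
      have h2 : (0 : ℝ) ≤ (k : ℝ) - 1 := by linarith
      positivity
  have hdpos : 0 < d := by
    rcases hd0.eq_or_lt with h | h
    · rw [← h] at hcrit; norm_num at hcrit
    · exact h
  have hlam : lam ≠ 0 := by
    rintro rfl
    norm_num at hcrit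
  have hρ : 0 < d * (d * lam ^ 2 - 1) := mul_pos hdpos (by linarith)
  set C : ℝ := 1 + D₂ * lam ^ 2 / (d * (d * lam ^ 2 - 1)) with hCdef
  have hC1 : 1 ≤ C := by
    have : 0 ≤ D₂ * lam ^ 2 / (d * (d * lam ^ 2 - 1)) := by positivity
    linarith
  have hC : d * C + D₂ * lam ^ 2 ≤ C * (d * lam) ^ 2 := by
    have e : C * (d * (d * lam ^ 2 - 1)) = d * (d * lam ^ 2 - 1) + D₂ * lam ^ 2 := by
      rw [hCdef, add_mul, one_mul, div_mul_cancel₀ _ hρ.ne']
    nlinarith
  have hCpos : 0 < C := by linarith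
  have hlow : ∀ n, 1 / (27 * C) ≤ adv (law n) := by
    intro n
    have hg := good_of_isLevel hM hd hD hC1 hC (hL n)
    have hc : (d * lam) ^ n ≠ 0 := pow_ne_zero _ (mul_ne_zero hdpos.ne' hlam)
    have hc2 : 0 < ((d * lam) ^ n) ^ 2 := by positivity
    have := adv_ge_of_good (mul_pos hCpos hc2) hg
    have e : ((d * lam) ^ n) ^ 2 / (27 * (C * ((d * lam) ^ n) ^ 2)) = 1 / (27 * C) := by
      field_simp
    rwa [e] at this
  have hanti : Antitone (fun n => adv (law n)) :=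
    antitone_nat_of_succ_le (fun n => adv_le_of_degraded (degraded_of_isLevel (hL n) (hL (n + 1))))
  have hbdd : BddBelow (Set.range (fun n => adv (law n))) :=
    ⟨0, by rintro _ ⟨n, rfl⟩; exact adv_nonneg _⟩
  refine ⟨⨅ n, adv (law n), ?_, tendsto_atTop_ciInf hanti hbdd⟩
  have : 1 / (27 * C) ≤ ⨅ n, adv (law n) := le_ciInf hlow
  have h0 : 0 < 1 / (27 * C) := by positivity
  linarith

end Claimed.Agent.R135
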