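import Claimed.Agent.R135.Ex

set_option autoImplicit false

namespace Claimed.Agent.R135

theorem pure_mean (b : ℕ) :
    HasSum (fun k : ℕ => ((PMF.pure b : PMF ℕ) k).toReal * (k : ℝ)) b :=
  hasEx_pure b (fun k : ℕ => (k : ℝ))

theorem pure_fact2 (b : ℕ) :
    HasSum (fun k : ℕ => ((PMF.pure b : PMF ℕ) k).toReal * ((k : ℝ) * ((k : ℝ) - 1)))
      ((b : ℝ) * ((b : ℝ) - 1)) :=
  hasEx_pure b (fun k : ℕ => (k : ℝ) * ((k : ℝ) - 1))

theorem poisson_mass (d : ℝ) :
    HasSum (fun k : ℕ => Real.exp (-d) * d ^ k / (k.factorial : ℝ)) 1 := by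
  convert! (NormedSpace.expSeries_div_hasSum_exp (d : ℝ)).mul_left (Real.exp (-d)) using 1
  · simp_rw [mul_div_assoc]
  · simp [← Real.exp_eq_exp_ℝ, ← Real.exp_add]

theorem poisson_mean (d : ℝ) :
    HasSum (fun k : ℕ => (Real.exp (-d) * d ^ k / (k.factorial : ℝ)) * (k : ℝ)) d := by
  rw [← hasSum_nat_add_iff' 1]
  have h := (poisson_mass d).mul_left d
  simp only [Finset.range_one, Finset.sum_singleton, Nat.cast_zero, mul_zero, sub_zero, mul_one]
    at h ⊢
  convert! h using 1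
  funext k
  rw [Nat.factorial_succ]
  have h1 : ((k : ℝ) + 1) ≠ 0 := by positivity
  have h2 : (k.factorial : ℝ) ≠ 0 := by positivity
  push_cast
  field_simp
  ring

theorem poisson_fact2 (d : ℝ) :
    HasSum (fun k : ℕ => (Real.exp (-d) * d ^ k / (k.factorial : ℝ)) * ((k : ℝ) * ((k : ℝ) - 1)))
      (d ^ 2) := by
  rw [← hasSum_nat_add_iff' 1]
  have h := (poisson_mean d).mul_left d
  simp only [Finset.range_one, Finset.sum_singleton, Nat.cast_zero, mul_zero, zero_mul, sub_zero]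
    at h ⊢
  rw [← sq] at h
  convert! h using 1
  funext k
  rw [Nat.factorial_succ]
  have h1 : ((k : ℝ) + 1) ≠ 0 := by positivity
  have h2 : (k.factorial : ℝ) ≠ 0 := by positivity
  push_cast
  field_simp
  ring

end Claimed.Agent.R135
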